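import Vale.Agent.P168.H45.SatLaw
import Vale.Agent.P168.H45.DisDefs

/-!
P168 (helper791): expectations over the random `K`-SAT disorder are averages over formulas.
-/

set_option linter.all false
set_option autoImplicit false

open MeasureTheory ProbabilityTheory
open scoped NNReal

namespace Vale.Agent.P168.Sat

/-- change of variables from a finite space; no measurability of the integrand -/
theorem integral_map_finite {A B : Type} [Finite A] [MeasurableSpace A]
    [DiscreteMeasurableSpace A] [MeasurableSpace B] [MeasurableSingletonClass B] (μ : Measure A)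
    (Φ : A → B) (f : B → ℝ) : ∫ b, f b ∂(μ.map Φ) = ∫ a, f (Φ a) ∂μ := by
  classical
  have hΦ : Measurable Φ := Measurable.of_discrete
  have hfin : (Set.range Φ).Finite := Set.finite_range _
  refine integral_map hΦ.aemeasurable ?_
  refine ⟨fun b => ∑ s ∈ hfin.toFinset, ({s} : Set B).indicator (fun _ => f s) b, ?_, ?_⟩
  · exact (Finset.measurable_fun_sum _ fun s _ =>
      measurable_const.indicator (measurableSet_singleton s)).stronglyMeasurable
  · have h : ∀ᵐ b ∂(μ.map Φ), b ∈ Set.range Φ :=
      (ae_map_iff (p := fun b => b ∈ Set.range Φ) hΦ.aemeasurable hfin.measurableSet).2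
        (Filter.Eventually.of_forall fun a => ⟨a, rfl⟩)
    filter_upwards [h] with b hb
    rw [Finset.sum_eq_single b]
    · simp
    · intro s _ hs
      simp [Set.indicator, hs.symm]
    · intro h'
      exact absurd (hfin.mem_toFinset.2 hb) h'

/-- the uniform law on formulas -/
noncomputable def muF (K N M : ℕ) : Measure (Formula K N M) :=
  Measure.pi fun _ => (Measure.pi fun _ : Fin K => uniformOn (Set.univ : Set Bool)).prod
    (Measure.pi fun _ : Fin K => unif N)

theorem unif_prob (N : ℕ) (hN : 1 ≤ N) : IsProbabilityMeasure (unif N) := by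
  have : NeZero N := ⟨by omega⟩
  exact isProbabilityMeasure_uniformOn Set.finite_univ Set.univ_nonempty

theorem muF_prob {K N M : ℕ} (hN : 1 ≤ N) : IsProbabilityMeasure (muF K N M) := by
  have := unif_prob N hN
  unfold muF
  infer_instance

theorem uniformOn_singleton {A : Type} [Fintype A] [MeasurableSpace A] [MeasurableSingletonClass A]
    (a : A) : uniformOn (Set.univ : Set A) {a} = 1 / Fintype.card A := by
  rw [uniformOn_univ, Measure.count_singleton]

theorem muF_singleton {K N M : ℕ} (hN : 1 ≤ N) (φ ψ : Formula K N M) :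
    muF K N M {φ} = muF K N M {ψ} := by
  have := unif_prob N hN
  have h : ∀ x : Formula K N M, muF K N M {x} =
      ∏ _k : Fin M, (∏ _j : Fin K, (1 / (Fintype.card Bool : ENNReal))) *
        ∏ _j : Fin K, (1 / (Fintype.card (Fin N) : ENNReal)) := by
    intro x
    unfold muF
    rw [← Set.univ_pi_singleton, Measure.pi_pi]
    refine Finset.prod_congr rfl fun k _ => ?_
    rw [← Prod.mk.eta (p := x k), ← Set.singleton_prod_singleton, Measure.prod_prod,
      ← Set.univ_pi_singleton, ← Set.univ_pi_singleton, Measure.pi_pi, Measure.pi_pi]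
    congr 1
    · exact Finset.prod_congr rfl fun j _ => uniformOn_singleton _
    · exact Finset.prod_congr rfl fun j _ => uniformOn_singleton _
  rw [h, h]

theorem integral_muF {K N M : ℕ} (hN : 1 ≤ N) (F : Formula K N M → ℝ) :
    ∫ φ, F φ ∂(muF K N M) = average F := by
  have := muF_prob (K := K) (M := M) hN
  have h0 : Nonempty (Formula K N M) := by
    have : NeZero N := ⟨by omega⟩
    exact ⟨fun _ => (fun _ => true, fun _ => 0)⟩
  obtain ⟨φ0⟩ := h0
  set c := (muF K N M).real {φ0} with hc
  have h1 : ∀ φ, (muF K N M).real {φ} = c := fun φ => by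
    unfold Measure.real at hc ⊢
    rw [hc, muF_singleton hN φ φ0]
  have h2 : ∀ G : Formula K N M → ℝ, ∫ φ, G φ ∂(muF K N M) = c * ∑ φ, G φ := by
    intro G
    rw [integral_fintype Integrable.of_finite, Finset.mul_sum]
    exact Finset.sum_congr rfl fun φ _ => by rw [h1, smul_eq_mul]
  have h3 := h2 fun _ => 1
  rw [integral_const, probReal_univ, one_smul, Finset.sum_const, Finset.card_univ,
    nsmul_eq_mul, mul_one] at h3
  have hne : (Fintype.card (Formula K N M) : ℝ) ≠ 0 := by
    intro h
    rw [h, mul_zero] at h3
    exact one_ne_zero h3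
  rw [h2, average, eq_div_iff hne, mul_assoc, mul_comm (∑ φ, F φ), ← mul_assoc, ← h3, one_mul]

theorem pi_dirac {ι : Type} [Fintype ι] (a : ι → ℝ) :
    Measure.pi (fun i => Measure.dirac (a i)) = Measure.dirac a := by
  classical
  refine Measure.pi_eq fun s hs => ?_
  rw [Measure.dirac_apply' _ (MeasurableSet.univ_pi hs)]
  simp_rw [Measure.dirac_apply' _ (hs _)]
  by_cases h : ∀ i, a i ∈ s i
  · rw [Set.indicator_of_mem (by simpa [Set.mem_univ_pi] using h)]
    exact (Finset.prod_eq_one fun i _ => by rw [Set.indicator_of_mem (h i)]; rfl).symm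
  · have h' := h
    push Not at h
    obtain ⟨i, hi⟩ := h
    rw [Set.indicator_of_notMem (by simpa [Set.mem_univ_pi] using h')]
    exact (Finset.prod_eq_zero (Finset.mem_univ i) (Set.indicator_of_notMem hi _)).symm

/-- the disorder of a formula -/
noncomputable def disF (K N M : ℕ) (β : ℝ) (φ : Formula K N M) : Disorder K N M :=
  (fun k => (satC K β (φ k).1, (φ k).2), 0)

theorem disorder_sat (K N M : ℕ) (β : ℝ) (hN : 1 ≤ N) :
    disorder (satLaw K β) (Measure.dirac 0) N M = (muF K N M).map (disF K N M β) := by
  have := unif_prob N hN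
  have h1 := (mp_satC K β).prod (MeasurePreserving.id (Measure.pi fun _ : Fin K => unif N))
  have h2 := measurePreserving_pi (fun _ : Fin M =>
    (Measure.pi fun _ : Fin K => uniformOn (Set.univ : Set Bool)).prod
      (Measure.pi fun _ : Fin K => unif N))
    (fun _ : Fin M => (satLaw K β).prod (Measure.pi fun _ : Fin K => unif N))
    (f := fun _ => Prod.map (satC K β) id) fun _ => h1
  have h3 : (Measure.pi fun _ : Fin N => Measure.dirac (0 : ℝ)) = Measure.dirac (0 : Fin N → ℝ) :=
    pi_dirac _
  unfold disorder muF
  rw [h3, Measure.prod_dirac, ← h2.map_eq, Measure.map_map measurable_prodMk_right h2.measurable]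
  rfl

theorem partition_sat {K N M : ℕ} (β : ℝ) (φ : Formula K N M) :
    partitionFn (disF K N M β φ).1 (disF K N M β φ).2 =
      ∑ σ : Fin N → Bool, Real.exp (-β * unsat φ σ) := by
  unfold partitionFn disF
  refine Finset.sum_congr rfl fun σ _ => ?_
  congr 1
  simp only [theta_sat, Pi.zero_apply, zero_mul, Finset.sum_const_zero, add_zero]
  rw [← Finset.sum_filter, Finset.sum_const, nsmul_eq_mul, mul_comm]
  rfl

theorem sing_clause (K : ℕ) : MeasurableSingletonClass (Clause K) :=
  inferInstanceAs (MeasurableSingletonClass (ℝ × ℝ × (Fin K → Bool → ℝ)))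

/-- **Expectations over the random `K`-SAT disorder are averages over all formulas.** -/
theorem bridge (K N M : ℕ) (β : ℝ) (hN : 1 ≤ N) (g : ℝ → ℝ) :
    ∫ w, g (randomPressure w) ∂(disorder (satLaw K β) (Measure.dirac 0) N M) =
      average fun φ : Formula K N M =>
        g (1 / (N : ℝ) * Real.log (∑ σ : Fin N → Bool, Real.exp (-β * unsat φ σ))) := by
  have := sing_clause K
  rw [disorder_sat K N M β hN, integral_map_finite, integral_muF hN]
  congr 1
  funext φ
  unfold randomPressure
  rw [partition_sat]

end Vale.Agent.P168.Sat
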